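/-
Thorp shuffle, Count module, final: `tr DI^8 ≤ 2^15 32^k`, unconditional.
-/
import Crest.Agent.Lib.Thorp.Count
import Crest.Agent.Lib.Thorp.Moment

set_option autoImplicit false

namespace Crest.Agent.Thorp

open Finset

/-- The trace bound (section 8 of the blueprint). -/
theorem trace_DI8_le (K : Type) [Fintype K] [DecidableEq K] (L : ℕ) :
    Matrix.trace ((DI K L) ^ 8) ≤ 2 ^ 15 * 32 ^ Fintype.card K := by
  refine trace_DI8_le_of_moment K L ?_ ?_
  · intro x hx
    have h := moment_main L (Finset.univ : Finset K) x (hx.injOn)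
    simpa using h
  · intro ω x hx
    exact WW_pos L ω Finset.univ x hx.injOn

end Crest.Agent.Thorp
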